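import Crest.Agent.X262.Geo.Dv
import Crest.Agent.X262.Slc57.Num
import Crest.Agent.X262.Mod79.Bp
import Crest.Agent.X262.Gfm18.Base
import Crest.Agent.X262.Loc95.Crv

/-!
# Row 262 (helper95): the configuration of the exceptional primes with centre of codimension two

* `cen H V`, `dlV H V` : the field and the degree of the centre of `V` on the `H`-model;
* `dg_cen`, `dg_cen_zero`, `dim_cen_le`, `dg_car` : numbers on an exceptional divisor;
* `mx2 P H d V W` : the intersection matrix; `ex2 P hH d` : the contracted curves;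
* `neg_def`, `cfg` : the configuration; `dg_eq_sum`, `mt_eq_zero`, `cfg_sol`.
-/

set_option autoImplicit false
set_option linter.unusedSectionVars false
set_option linter.style.haveILetI false

open scoped KaehlerDifferential

noncomputable section

namespace Crest.Agent.X262.Loc

open Crest.Agent.X277 Crest.Agent.X277.BD Crest.Agent.X277.Pst
open Crest.Agent.X277.BD.Cyc (Rf plV)
open Crest.Agent.X277.Lef
open Crest.Agent.X277.BD.Br (On oP kP)
open Crest.Agent.X262.Mod (IsMod Car LeOn EqOn Gz)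
open Crest.Agent.X262.Geo Crest.Agent.X262.Slc57
open List (replicate)
open Finset

/-- a symmetric matrix with nonnegative entries off the diagonal and a negative vector -/
theorem neg_def {ι : Type*} {s : Finset ι} {M : ι → ι → ℤ} (h1 : ∀ i j, M i j = M j i)
    (h2 : ∀ i j, i ≠ j → 0 ≤ M i j) {e : ι → ℤ} (h3 : ∀ i ∈ s, 0 ≤ e i)
    (h4 : ∀ i ∈ s, ∑ j ∈ s, e j * M i j < 0) (c : ι → ℚ) (hc : ∃ i ∈ s, c i ≠ 0) :
    ∑ i ∈ s, ∑ j ∈ s, c i * c j * M i j < 0 := by
  have h5 : ∀ i ∈ s, (0 : ℚ) < e i := fun i hi => by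
    refine Int.cast_pos.2 ((h3 i hi).lt_of_ne fun h0 => (h4 i hi).not_ge (sum_nonneg fun j hj => ?_))
    rcases eq_or_ne i j with rfl | h
    · rw [← h0, zero_mul]
    · exact mul_nonneg (h3 j hj) (h2 i j h)
  have h6 : ∀ i ∈ s, ∀ j ∈ s, 2 * (c i * c j * M i j) ≤
      c i ^ 2 / e i * (e j * M i j) + c j ^ 2 / e j * (e i * M j i) := fun i hi j hj => by
    have hi' := h5 i hi
    have hj' := h5 j hj
    rcases eq_or_ne i j with rfl | h
    · exact le_of_eq (by field_simp; ring)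
    · have h7 : (0 : ℚ) ≤ M i j := Int.cast_nonneg (h2 i j h)
      rw [h1 j i, ← sub_nonneg, show c i ^ 2 / e i * (e j * M i j) + c j ^ 2 / e j * (e i * M i j) -
        2 * (c i * c j * M i j) = (c i * e j - c j * e i) ^ 2 * M i j / (e i * e j) by
          field_simp; ring]
      positivity
  have h7 : ∀ i ∈ s, ∑ j ∈ s, (e j : ℚ) * M i j < 0 := fun i hi => by exact_mod_cast h4 i hi
  have h8 : ∑ i ∈ s, ∑ j ∈ s, c i ^ 2 / e i * (e j * M i j) < 0 := by
    obtain ⟨i, hi, h0⟩ := hc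
    rw [← sum_const_zero (s := s)]
    refine sum_lt_sum (fun i hi => ?_) ⟨i, hi, ?_⟩
    · rw [← mul_sum]
      exact mul_nonpos_of_nonneg_of_nonpos (div_nonneg (sq_nonneg _) (h5 i hi).le) (h7 i hi).le
    · rw [← mul_sum]
      exact mul_neg_of_pos_of_neg (div_pos (by positivity) (h5 i hi)) (h7 i hi)
  have h9 := sum_le_sum fun i hi => sum_le_sum (h6 i hi)
  simp only [sum_add_distrib, ← mul_sum] at h9
  simp only [mul_sum] at h9
  rw [sum_comm (f := fun i j => c j ^ 2 / e j * (e i * M j i))] at h9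
  simp only [← mul_sum] at h8 h9
  linarith

section val

variable {k F : Type} [Field k] [Field F] [Algebra k F] {H a : BD k F} {V W : RZ k F} {d : ℕ}

/-- the algebraic closure in the residue field of the field of the centre on the `H`-model -/
abbrev cen (H : BD k F) (V : RZ k F) : IntermediateField k (Rf V) := cf ((plV V).rs H)

variable [CharZero k]

open Classical in
/-- the degree of the centre (Stein factorisation) -/
def dlV (H : BD k F) (V : RZ k F) : ℤ :=
  if h : Algebra.EssFiniteType k (Rf V) then (haveI := h; dl ((plV V).rs H)) else 0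

section inst

variable [h : Algebra.EssFiniteType k (Rf V)]

theorem dlV_eq : dlV H V = dl ((plV V).rs H) := dif_pos h

theorem dg_cen (hH : Free H) (hd : dim k (cen H V) = d) (l : List (BD k F)) :
    dg V (l ++ replicate d H) = dlV H V * bnum (l.map fun x => up (cen H V) ((plV V).rs x)) := by
  rw [dg_eq, List.map_append, List.map_replicate, ← hd, bnum_cf ((plV V).free_rs hH), dlV_eq,
    List.map_map]
  rfl

theorem dg_cen_one (hH : Free H) (hd : dim k (cen H V) = d) (x : BD k F) :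
    dg V (x :: replicate d H) = dlV H V * bnum [up (cen H V) ((plV V).rs x)] := dg_cen hH hd [x]

end inst

variable [Algebra.EssFiniteType k F]

theorem dlV_pos (hH : Free H) (hV : Dvs V) : 0 < dlV H V := by
  haveI := essFT_Rf hV
  exact dlV_eq (H := H) (V := V) ▸ dl_pos ((plV V).free_rs hH)

theorem dg_cen_zero (hH : Free H) (hV : Dvs V) (hd : dim k (cen H V) < d) (l : List (BD k F)) :
    dg V (l ++ replicate d H) = 0 := by
  haveI := essFT_Rf hV
  rw [dg_eq, List.map_append, List.map_replicate, bnum_cf_zero ((plV V).free_rs hH) _ hd]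

theorem dlV_dvd (hH : Free H) (hV : Dvs V) (hd : dim k (cen H V) = d) (l : List (BD k F)) :
    dlV H V ∣ dg V (l ++ replicate d H) := by
  haveI := essFT_Rf hV
  exact dg_cen hH hd l ▸ dvd_mul_right _ _

theorem dim_cen_add (H : BD k F) (hV : Dvs V) :
    dim k (cen H V) + dim (cen H V) (Rf V) + 1 = dim k F := by
  haveI := essFT_Rf hV
  rw [dim_cf_add, dim_Rf' hV]

theorem prm_iff_dim_cen (hH : IsMod H) (hV : Dvs V) :
    Prm H V ↔ dim k (cen H V) + 1 = dim k F := by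
  haveI := essFT_Rf hV
  have h1 := dim_cen_add H hV
  rw [prm_iff_dg hH hV (dim_Rf' hV), dg_eq, List.map_replicate,
    ← ((plV V).free_rs hH.free).nef.big_iff, Gfm.big_iff_dim_cf ((plV V).free_rs hH.free)]
  change dim (cen H V) (Rf V) = 0 ↔ _
  omega

theorem dim_cen_le (hH : IsMod H) (hV : Dvs V) (h : ¬ Prm H V) (hd : dim k F = d + 2) :
    dim k (cen H V) ≤ d := by
  have h1 := dim_cen_add H hV
  have h2 := mt (prm_iff_dim_cen hH hV).2 h
  omega

theorem dim_cen_one (hV : Dvs V) (hd : dim k F = d + 2) (h : dim k (cen H V) = d) :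
    dim (cen H V) (Rf V) = 1 := by
  have h1 := dim_cen_add H hV
  omega

/-- classes which come from the `H`-model have degree zero on the contracted curves -/
theorem dg_car (hH : Free H) (hV : Dvs V) (h : dim k (cen H V) ≤ d) (ha : Car H a) :
    dg V (a :: replicate d H) = 0 := by
  have h0 : dg V (H :: replicate d H) = 0 := dg_cen_zero hH hV (Nat.lt_succ_of_le h) []
  obtain ⟨c, h1, h2⟩ := ha
  have h3 : ∀ {x}, Free x → 0 ≤ dg V (x :: replicate d H) := fun hx =>
    dg_nonneg (List.forall_mem_cons.2 ⟨hx.nef, all_rp hH.nef _⟩)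
  have h4 := h3 h1
  have h5 := h3 h2
  rw [dg_add, dg_nsmul, h0] at h4
  rw [dg_sub, dg_nsmul, h0] at h5
  omega

theorem dg_rnef (hH : Free H) (hV : Dvs V) (h : dim k (cen H V) ≤ d) (ha : Mod.RNef H a) :
    0 ≤ dg V (a :: replicate d H) := by
  have h0 : dg V (H :: replicate d H) = 0 := dg_cen_zero hH hV (Nat.lt_succ_of_le h) []
  obtain ⟨c, h1⟩ := ha
  have h4 : 0 ≤ dg V (_ :: replicate d H) :=
    dg_nonneg (List.forall_mem_cons.2 ⟨h1, all_rp hH.nef _⟩)
  rw [dg_add, dg_nsmul, h0] at h4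
  omega

/-- the polarisation of a model on which `V` is prime is positive on the contracted curve -/
theorem dg_pos_cen {H' : BD k F} (hH' : IsMod H') (hV : Prm H' V) (hH : Free H)
    (hd : dim k F = d + 2) (h : dim k (cen H V) = d) : 0 < dg V (H' :: replicate d H) := by
  haveI := essFT_Rf hV.dvs
  have h1 := dg_pos hH' hV (dim_Rf' hV.dvs)
  rw [dg_eq, List.map_replicate, ← ((plV V).free_rs hH'.free).nef.big_iff] at h1
  rw [dg_cen_one hH h]
  exact mul_pos (dlV_pos hH hV.dvs) ((big_iff_deg (dim_cen_one hV.dvs hd h)).1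
    (Gfm.isMod_up _ (Mod.isMod_iff.2 ⟨(plV V).free_rs hH'.free, h1⟩)).big)

end val

section cfg

variable {F : Type} [Field F] [Algebra ℂ F] [Algebra.EssFiniteType ℂ F] {P : PModel ℂ F}
  {H a a' : BD ℂ F} {V W : RZ ℂ F} {d : ℕ}

variable (P H d) in
/-- the intersection matrix -/
def mx2 (V W : RZ ℂ F) : ℤ := bnum (dv P V :: dv P W :: replicate d H)

theorem mt_comm (V W : RZ ℂ F) : mx2 P H d V W = mx2 P H d W V := bnum_swap _ _ _

theorem mt_of_not (hV : ¬ Prm (oP P) V) (W : RZ ℂ F) : mx2 P H d V W = 0 := by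
  rw [mx2, dv_of_not hV, bnum_zero]

theorem on_cons (ha : a ∈ On P) (hP : H ∈ On P) : ∀ x ∈ a :: replicate d H, x ∈ On P :=
  List.forall_mem_cons.2 ⟨ha, all_rp hP _⟩

theorem mt_eq (hP : H ∈ On P) (hV : Prm (oP P) V) (W : RZ ℂ F) :
    mx2 P H d V W = dg V (dv P W :: replicate d H) := bnum_dv hV (on_cons (dv_mem W) hP)

theorem mt_nonneg (hH : Free H) (hP : H ∈ On P) (h : V ≠ W) : 0 ≤ mx2 P H d V W := by
  by_cases hV : Prm (oP P) V
  · exact mt_eq hP hV W ▸ dg_dv_nonneg hV h (all_rp hH.nef _)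
  · exact (mt_of_not hV W).ge

/-- divisors with small centre do not count -/
theorem mt_of_lt (hH : Free H) (hP : H ∈ On P) (h : dim ℂ (cen H W) < d) (V : RZ ℂ F) :
    mx2 P H d V W = 0 := by
  by_cases hW : Prm (oP P) W
  · rw [mt_comm, mt_eq hP hW]
    exact dg_cen_zero hH hW.dvs h [_]
  · rw [mt_comm, mt_of_not hW]

theorem dg_eq_sum (hP : H ∈ On P) (hV : Prm (oP P) V) (ha : a ∈ On P) {T : Finset (RZ ℂ F)}
    (hT : ∀ W, Prm (oP P) W → od W a ≠ 0 → mx2 P H d V W ≠ 0 → W ∈ T) :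
    dg V (a :: replicate d H) = ∑ W ∈ T, od W a * mx2 P H d V W := by
  classical
  conv_lhs => rw [eq_sum_dv ha (T := sp P a ∪ T) fun W h1 h2 =>
    mem_union_left _ (mem_sp.2 ⟨h1, h2⟩), dg_sum]
  simp only [dg_zsmul, ← mt_eq hP hV]
  refine (sum_subset subset_union_right fun W h1 h2 => by_contra fun h3 => h2 ?_).symm
  have h4 := mem_sp.1 ((mem_union.1 h1).resolve_right h2)
  exact hT W h4.1 h4.2 (right_ne_zero_of_mul h3)

/-- curves over different points do not meet -/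
theorem mt_eq_zero (hH : Free H) (hP : H ∈ On P) (hV : Prm (oP P) V) (h : dim ℂ (cen H V) ≤ d)
    (hg : ¬ Gz H V W) : mx2 P H d V W = 0 := by
  by_cases hW : Prm (oP P) W
  swap
  · rw [mt_comm, mt_of_not hW]
  simp only [Gz, not_forall] at hg
  obtain ⟨m, g, h1, h2, h3⟩ := hg
  have h0 := ne_of_val h2
  have h4 : 0 ≤ m • H - pr ℂ g := sub_nonneg.2 ((pr_le_iff h0).2 h1)
  have h5 : m • H - pr ℂ g ∈ On P := sub_mem (nsmul_mem hP m) (Br.pr_mem g)
  have h6 : od V (m • H - pr ℂ g) = 0 := (od_eq_zero hV.dvs).2 (Pl.val_sub_gen (p := plV V) h2)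
  have h7 : od W (m • H - pr ℂ g) ≠ 0 := fun h8 => h3 (by
    rw [od_eq_zero hW.dvs, val_sub, val_pr h0, div_eq_one_iff_eq (RZ.pos h0).ne'] at h8
    exact h8.symm)
  have h8 := dg_eq_sum (d := d) hP hV h5 (T := sp P _) fun U h1 h2 _ => mem_sp.2 ⟨h1, h2⟩
  rw [dg_car hH hV.dvs h (((Mod.car_self hH).nsmul m).sub (Mod.car_pr g)), eq_comm,
    sum_eq_zero_iff_of_nonneg] at h8
  · exact (mul_eq_zero.1 (h8 W (mem_sp.2 ⟨hW, h7⟩))).resolve_left h7
  · intro U hU
    exact mul_nonneg (od_nonneg h4) (mt_nonneg hH hP fun e => (mem_sp.1 hU).2 (e ▸ h6))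

variable (P d) in
open Classical in
/-- the exceptional primes of `P` whose centre has dimension `d` -/
def ex2 (hH : IsMod H) : Finset (RZ ℂ F) :=
  (hH.fin_exc (isMod_oP P)).toFinset.filter fun V => dim ℂ (cen H V) = d

theorem mem_ex2 {hH : IsMod H} :
    V ∈ ex2 P d hH ↔ Prm (oP P) V ∧ ¬ Prm H V ∧ dim ℂ (cen H V) = d := by
  simp [ex2, and_assoc]

variable (hH : IsMod H) (hP : H ∈ On P) (hd : dim ℂ F = d + 2)
include hH hP hd

theorem mem_ex2_of_mt (hW : ¬ Prm H W) (h : mx2 P H d V W ≠ 0) : W ∈ ex2 P d hH := by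
  have h1 : Prm (oP P) W := by_contra fun h1 => h (by rw [mt_comm, mt_of_not h1])
  exact mem_ex2.2 ⟨h1, hW, (dim_cen_le hH h1.dvs hW hd).antisymm
    (not_lt.1 fun h2 => h (mt_of_lt hH.free hP h2 V))⟩

/-- the degree of an exceptional divisor -/
theorem dg_exc (hV : Prm (oP P) V) (ha : a ∈ On P) (h : EqOn H a 0) :
    dg V (a :: replicate d H) = ∑ W ∈ ex2 P d hH, od W a * mx2 P H d V W :=
  dg_eq_sum hP hV ha fun W h1 h2 h3 => mem_ex2_of_mt hH hP hd
    (fun h4 => h2 ((od_eq_zero h1.dvs).2 (h W h4))) h3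

theorem exists_neg : ∃ e : RZ ℂ F → ℤ, (∀ V, 0 ≤ e V) ∧
    ∀ V ∈ ex2 P d hH, ∑ W ∈ ex2 P d hH, e W * mx2 P H d V W < 0 := by
  obtain ⟨m, e, h1, h2, h3, -⟩ := hH.exists_exc (oP P)
  refine ⟨fun V => od V (tr P e), fun V => od_nonneg (tr_nonneg h1), fun V hV => ?_⟩
  obtain ⟨h4, -, h5⟩ := mem_ex2.1 hV
  have h6 : EqOn H (tr P e) 0 := fun W hW => by
    have h7 := prm_up (P := P) (Q := P) Br.oP_mem ((car_of_On hP).prm hW)
    exact ((od_eq_iff hW.dvs).1 (od_tr h7 e)).trans (h2 W hW)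
  rw [← dg_exc hH hP hd h4 (tr_mem e) h6]
  have h7 := dg_nonneg_of (V := V) (l := replicate d H) (sub_nonneg.2 (le_tr (P := P) h3.nef))
    ((od_eq_zero h4.dvs).1 (by rw [map_sub, od_tr h4, sub_self])) (all_rp hH.free.nef _)
  have h8 : 0 ≤ dg V (_ :: replicate d H) :=
    dg_nonneg (List.forall_mem_cons.2 ⟨h3.nef, all_rp hH.free.nef _⟩)
  have h9 := dg_pos_cen (isMod_oP P) h4 hH.free hd h5
  rw [dg_sub, map_sub, map_sub, tr_eq (nsmul_mem hP m), tr_eq Br.oP_mem, dg_sub, dg_sub,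
    dg_car hH.free h4.dvs h5.le ((Mod.car_self hH.free).nsmul m)] at h7
  omega

omit hH hP hd in
/-- adjunction on the contracted curves -/
def AdjAt (P : PModel ℂ F) (K H : BD ℂ F) (d : ℕ) : Prop :=
  ∀ V, Prm (oP P) V → dim ℂ (cen H V) = d →
    -2 * dlV H V ≤ dg V ((K + dv P V) :: replicate d H)

/-- **the configuration**; `K` is the canonical class of `P` -/
def cfg {K : BD ℂ F} (hK : K ∈ On P) (hA : AdjAt P K H d) : Cfg (RZ ℂ F) where
  s := ex2 P d hH
  M := mx2 P H d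
  δ := dlV H
  k V := bnum (K :: dv P V :: replicate d H)
  symm := mt_comm
  off _ _ := mt_nonneg hH.free hP
  δ_pos _ hV := dlV_pos hH.free (mem_ex2.1 hV).1.dvs
  dvdM _ hV W := mt_eq hP (mem_ex2.1 hV).1 W ▸
    dlV_dvd hH.free (mem_ex2.1 hV).1.dvs (mem_ex2.1 hV).2.2 [_]
  dvdk _ hV := dg_On (mem_ex2.1 hV).1 hK (all_rp hP d) ▸
    dlV_dvd hH.free (mem_ex2.1 hV).1.dvs (mem_ex2.1 hV).2.2 [_]
  neg := by
    obtain ⟨e, h1, h2⟩ := exists_neg hH hP hd
    exact neg_def mt_comm (fun _ _ => mt_nonneg hH.free hP) (fun V _ => h1 V) h2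
  adj V hV := by
    rw [mt_eq hP (mem_ex2.1 hV).1, ← dg_On (mem_ex2.1 hV).1 hK (all_rp hP d), ← dg_add]
    exact hA V (mem_ex2.1 hV).1 (mem_ex2.1 hV).2.2

variable {K : BD ℂ F} (hK : K ∈ On P) (hA : AdjAt P K H d)

theorem mem_cfg : V ∈ (cfg hH hP hd hK hA).s ↔
    Prm (oP P) V ∧ ¬ Prm H V ∧ dim ℂ (cen H V) = d := mem_ex2 (hH := hH)

theorem cfg_M (hV : Prm (oP P) V) (W : RZ ℂ F) :
    (cfg hH hP hd hK hA).M V W = dg V (dv P W :: replicate d H) := mt_eq hP hV W

theorem cfg_k (hV : Prm (oP P) V) : (cfg hH hP hd hK hA).k V = dg V (K :: replicate d H) :=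
  (dg_On hV hK (all_rp hP d)).symm

theorem cfg_δ (V : RZ ℂ F) : (cfg hH hP hd hK hA).δ V = dlV H V := rfl

open Classical in
/-- the degree of `a'`, if `a' - m a` is supported on `t` near `V` -/
theorem cfg_ev {t : Finset (RZ ℂ F)} (ha : a ∈ On P) (ha' : a' ∈ On P) {m : ℕ} (hm : 0 < m)
    (hV : Prm (oP P) V)
    (h : ∀ W, Prm (oP P) W → od W (a' - m • a) ≠ 0 → mx2 P H d V W ≠ 0 → W ∈ t) :
    (cfg hH hP hd hK hA).ev t (fun W => dg W (a :: replicate d H))
      (fun W => od W (a' - m • a) / m) V = dg V (a' :: replicate d H) / m := by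
  have h1 := dg_eq_sum hP hV (sub_mem ha' (nsmul_mem ha m)) h
  rw [dg_sub, dg_nsmul, sub_eq_iff_eq_add'] at h1
  have h2 : (m : ℚ) ≠ 0 := Nat.cast_ne_zero.2 hm.ne'
  rw [h1, Cfg.ev]
  push_cast
  rw [add_div, sum_div, mul_div_cancel_left₀ _ h2]
  exact congrArg _ (sum_congr rfl fun W _ => div_mul_eq_mul_div _ _ _)

open Classical in
/-- pull-back coefficients solve the linear system -/
theorem cfg_sol {t : Finset (RZ ℂ F)} (ha : a ∈ On P) (ha' : a' ∈ On P) {m : ℕ} (hm : 0 < m)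
    (ht : ∀ V ∈ t, Prm (oP P) V) (h0 : ∀ V ∈ t, dg V (a' :: replicate d H) = 0)
    (h : ∀ V ∈ t, ∀ W, Prm (oP P) W → od W (a' - m • a) ≠ 0 → mx2 P H d V W ≠ 0 → W ∈ t) :
    (cfg hH hP hd hK hA).Sol t (fun W => dg W (a :: replicate d H))
      (fun W => od W (a' - m • a) / m) := fun V hV => by
  rw [cfg_ev hH hP hd hK hA ha ha' hm (ht V hV) (h V hV), h0 V hV, Int.cast_zero, zero_div]

end cfg

end Crest.Agent.X262.Loc
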