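import Crest.Agent.X262.Loc95.Can
import Crest.Agent.X277.Unf.Main

/-!
# Row 262 (helper95): terminal models and Mori fibre spaces whose generic fibre is a curve

* `deg_kLe`, `deg_kEq` : the degree on the generic fibre of classes compared with `s K`;
* `TM.deg_κ`, `MFS.deg_κ`, `MFS.gn_eq` : conic bundles.
-/

set_option autoImplicit false
set_option linter.unusedSectionVars false

open scoped KaehlerDifferential

noncomputable section

namespace Crest.Agent.X262.Loc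

open Crest.Agent.X277 Crest.Agent.X277.BD Crest.Agent.X277.Lef
open Crest.Agent.X277.BD.Br (On)
open Crest.Agent.X262.Mod (Car)
open Crest.Agent.X262.Sark
open Module

variable {F : Type} [Field F] [Algebra ℂ F] [Algebra.EssFiniteType ℂ F] {A H a : BD ℂ F} {m s : ℕ}
  {b : Basis (Fin (m + 1)) F Ω[F⁄ℂ]}

theorem exists_on (A : BD ℂ F) : ∃ P : PModel ℂ F, A ∈ On P :=
  (Unf.exists_on {A}).imp fun _ h => h A (Finset.mem_singleton_self A)

variable (hA : Free A) (hd : dim (cf A) F = 1)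
include hA hd

theorem KLe.up_le (ha : KLe b s a) {δ : Derivation (cf A) F F} (h : IsRel b δ) :
    up (cf A) a ≤ s • kC δ :=
  (exists_on A).elim fun _ hP => up_le_of_kLe hA hP hd h ha

theorem KEq.up_eq (ha : KEq b s H a) (hH : Free H) (hc : Car H A) {δ : Derivation (cf A) F F}
    (h : IsRel b δ) : up (cf A) a = s • kC δ :=
  (exists_on A).elim fun _ hP => up_eq_of_kEq hA hP hd h hH hc ha

theorem deg_kLe (ha : KLe b s a) : bnum [up (cf A) a] ≤ s * (2 * gn (cf A) F - 2) := by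
  obtain ⟨δ, h⟩ := exists_rel hd b
  have h1 := bnum_mono1 (l := []) (eff_sub_of_le (KLe.up_le hA hd ha h)).psef (by simp)
  rwa [bnum_nsmul, deg_kC hd (h.ne hd), cst_cf, Nat.cast_one, mul_one] at h1

theorem deg_kEq (ha : KEq b s H a) (hH : Free H) (hc : Car H A) :
    bnum [up (cf A) a] = s * (2 * gn (cf A) F - 2) := by
  obtain ⟨δ, h⟩ := exists_rel hd b
  rw [KEq.up_eq hA hd ha hH hc h, bnum_nsmul, deg_kC hd (h.ne hd), cst_cf, Nat.cast_one, mul_one]

theorem TM.deg_κ (Z : TM b) (hc : Car Z.H A) :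
    bnum [up (cf A) Z.κ] = Z.r * (2 * gn (cf A) F - 2) := deg_kEq hA hd Z.κ_eq Z.mod.free hc

theorem TM.deg_κ_ge (Z : TM b) (hc : Car Z.H A) : -2 * (Z.r : ℤ) ≤ bnum [up (cf A) Z.κ] := by
  rw [TM.deg_κ hA hd Z hc]
  nlinarith [Int.natCast_nonneg Z.r, Int.natCast_nonneg (gn (cf A) F)]

theorem TM.gn_eq (Z : TM b) (hc : Car Z.H A) (h : bnum [up (cf A) Z.κ] < 0) :
    gn (cf A) F = 0 := by
  rw [TM.deg_κ hA hd Z hc] at h
  have h1 := neg_of_mul_neg_right h (Int.natCast_nonneg _)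
  omega

theorem TM.deg_κ_of_neg (Z : TM b) (hc : Car Z.H A) (h : bnum [up (cf A) Z.κ] < 0) :
    bnum [up (cf A) Z.κ] = -2 * (Z.r : ℤ) := by
  rw [TM.deg_κ hA hd Z hc, TM.gn_eq hA hd Z hc h]
  push_cast
  ring

omit hA hd

/-- the generic fibre of a conic bundle: `-κ` is big -/
theorem MFS.deg_κ_neg (Y : MFS b) (hd : dim (cf Y.A) F = 1) : bnum [up (cf Y.A) Y.κ] < 0 := by
  obtain ⟨q, l, hq, h⟩ := Y.anti
  have h1 := (nef_iff_deg hd).1 (h.up (cf Y.A)).nef
  have h2 := (big_iff_deg hd).1 (Gfm.isMod_up (cf Y.A) Y.mod).big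
  rw [map_sub, map_sub, map_nsmul, map_nsmul, bnum_sub, bnum_sub, bnum_nsmul, bnum_nsmul,
    (lin_up_cf Y.A_free).bnum_eq, bnum_zero] at h1
  exact neg_of_mul_neg_right (a := (q : ℤ)) (by omega) (Int.natCast_nonneg _)

theorem MFS.gn_eq (Y : MFS b) (hd : dim (cf Y.A) F = 1) : gn (cf Y.A) F = 0 :=
  TM.gn_eq Y.A_free hd Y.toTM Y.A_car (MFS.deg_κ_neg Y hd)

theorem MFS.deg_κ (Y : MFS b) (hd : dim (cf Y.A) F = 1) :
    bnum [up (cf Y.A) Y.κ] = -2 * (Y.r : ℤ) :=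
  TM.deg_κ_of_neg Y.A_free hd Y.toTM Y.A_car (MFS.deg_κ_neg Y hd)

end Crest.Agent.X262.Loc
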